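import Vale.Agent.P342.Defs

/-! P342, module C1: some set has full coefficient. -/

namespace Vale.Agent.P342.H399

open Finset

variable {l : ℕ}

theorem cf_full_aux {m : ℕ} {t : Fin l → ℕ} (ht : IsType m t) (hm : 0 < m)
    (hcon : ∀ U : Finset (Fin l), U.Nonempty → 2 ^ l * wt m t U < m) (j : ℕ) :
    min (j + 1) l ≤ (univ.filter fun b => 2 ^ l * (m - t b) ≤ j * (m - 1)).card := by
  classical
  induction j with
  | zero =>
    obtain ⟨b, hb⟩ := ht.2
    have h1 : 0 < (univ.filter fun b => 2 ^ l * (m - t b) ≤ 0 * (m - 1)).card :=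
      Finset.card_pos.2 ⟨b, by simp [hb]⟩
    omega
  | succ j ih =>
    obtain ⟨W, hW⟩ : ∃ W : Finset (Fin l), W = univ.filter fun b =>
        2 ^ l * (m - t b) ≤ j * (m - 1) := ⟨_, rfl⟩
    rw [← hW] at ih
    have hsub : W ⊆ univ.filter fun b => 2 ^ l * (m - t b) ≤ (j + 1) * (m - 1) := by
      intro b hb
      rw [hW, Finset.mem_filter] at hb
      refine Finset.mem_filter.2 ⟨mem_univ _, hb.2.trans ?_⟩
      exact Nat.mul_le_mul_right _ (by omega)
    by_cases hWu : W = univ
    · have h1 : W.card = l := by rw [hWu, Finset.card_univ, Fintype.card_fin]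
      have := Finset.card_le_card hsub
      omega
    · have hWne : W.Nonempty := by
        obtain ⟨b, hb⟩ := ht.2
        exact ⟨b, by rw [hW, Finset.mem_filter]; simp [hb]⟩
      have hWc : Wᶜ.Nonempty := by
        rw [Finset.nonempty_iff_ne_empty]
        intro h
        exact hWu (by simpa using h)
      obtain ⟨b, hb, hbm⟩ := Finset.exists_mem_eq_sup Wᶜ hWc t
      obtain ⟨b', hb', hbm'⟩ := Finset.exists_mem_eq_inf' hWne t
      have h1 := hcon W hWne
      have hhi : hi m t W = t b' := by
        unfold hi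
        rw [dif_pos hWne, hbm']
      unfold wt lo at h1
      rw [hhi, hbm] at h1
      have hbW : b ∉ W := Finset.mem_compl.1 hb
      have h2 : 2 ^ l * (m - t b') ≤ j * (m - 1) := by
        rw [hW, Finset.mem_filter] at hb'
        exact hb'.2
      have h3 : 2 ^ l * (m - t b) ≤ (j + 1) * (m - 1) := by
        have h4 : m - t b ≤ (m - t b') + (t b' - t b) := by omega
        calc 2 ^ l * (m - t b) ≤ 2 ^ l * ((m - t b') + (t b' - t b)) :=
              Nat.mul_le_mul_left _ h4
          _ = 2 ^ l * (m - t b') + 2 ^ l * (t b' - t b) := by ring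
          _ ≤ j * (m - 1) + (m - 1) := by omega
          _ = (j + 1) * (m - 1) := by ring
      have h5 : insert b W ⊆ univ.filter fun b => 2 ^ l * (m - t b) ≤ (j + 1) * (m - 1) := by
        intro x hx
        rw [Finset.mem_insert] at hx
        rcases hx with rfl | hx
        · exact Finset.mem_filter.2 ⟨mem_univ _, h3⟩
        · exact hsub hx
      have h6 := Finset.card_le_card h5
      rw [Finset.card_insert_of_notMem hbW] at h6
      omega

theorem cf_full {m : ℕ} {t : Fin l → ℕ} (ht : IsType m t) (hm : 0 < m) :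
    ∃ U : Finset (Fin l), U.Nonempty ∧ cf m t U = m := by
  classical
  by_contra hno
  push Not at hno
  have hcon : ∀ U : Finset (Fin l), U.Nonempty → 2 ^ l * wt m t U < m := by
    intro U hU
    by_contra h
    push Not at h
    exact hno U hU (min_eq_left h)
  obtain ⟨b0, hb0⟩ := ht.2
  have hl : 0 < l := lt_of_le_of_lt (Nat.zero_le _) b0.2
  have h1 := cf_full_aux ht hm hcon (l - 1)
  have h2 : (univ.filter fun b => 2 ^ l * (m - t b) ≤ (l - 1) * (m - 1)) = univ := by
    apply Finset.eq_univ_of_card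
    rw [Fintype.card_fin]
    refine le_antisymm ?_ (by omega)
    exact (Finset.card_filter_le _ _).trans (by simp)
  have hne : (univ : Finset (Fin l)).Nonempty := ⟨b0, mem_univ _⟩
  have h3 := hcon univ hne
  obtain ⟨b', -, hbm'⟩ := Finset.exists_mem_eq_inf' hne t
  have hhi : hi m t univ = t b' := by
    unfold hi
    rw [dif_pos hne, hbm']
  have hlo : lo t (univ : Finset (Fin l)) = 0 := by
    unfold lo
    simp
  unfold wt at h3
  rw [hhi, hlo, Nat.sub_zero] at h3
  have h4 : 2 ^ l * (m - t b') ≤ (l - 1) * (m - 1) := by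
    have : b' ∈ univ.filter fun b => 2 ^ l * (m - t b) ≤ (l - 1) * (m - 1) := by
      rw [h2]; exact mem_univ _
    exact (Finset.mem_filter.1 this).2
  have h5 : 2 ^ l * m ≤ 2 ^ l * t b' + 2 ^ l * (m - t b') := by
    rw [← Nat.mul_add]
    exact Nat.mul_le_mul_left _ (by omega)
  have h6 : l < 2 ^ l := Nat.lt_two_pow_self
  have h7 : (l - 1) * (m - 1) + m ≤ l * m := by
    obtain ⟨a, rfl⟩ : ∃ a, l = a + 1 := ⟨l - 1, by omega⟩
    obtain ⟨b, rfl⟩ : ∃ b, m = b + 1 := ⟨m - 1, by omega⟩
    simp only [Nat.add_sub_cancel]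
    nlinarith
  have h8 : l * m ≤ 2 ^ l * m := Nat.mul_le_mul_right _ h6.le
  omega

end Vale.Agent.P342.H399
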