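import Vale.Agent.P342.Defs

/-! P342, module E: short lists have no satisfying pair on some tuple of edges. -/

namespace Vale.Agent.P342.H399

open Vale.Agent.Lib.PCP Finset

variable {l r : ℕ}

theorem sum_get_countP {α : Type} (P : α → Bool) (G : List α) :
    ∑ j : Fin G.length, (if P (G.get j) then (1 : ℕ) else 0) = G.countP P := by
  induction G with
  | nil => simp
  | cons a G ih =>
    rw [List.countP_cons, ← ih, add_comm]
    exact Fin.sum_univ_succ (n := G.length)
      (fun j => if P ((a :: G).get j) = true then (1 : ℕ) else 0)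

/-- enumeration of a small finset -/
theorem exists_enum [NeZero r] {K : ℕ} (S : Finset (Fin r)) (h : S.card ≤ K) :
    ∃ f : Fin K → Fin r, ∀ s ∈ S, ∃ i, f i = s := by
  classical
  obtain ⟨g⟩ : Nonempty (S ↪ Fin K) := by
    apply Function.Embedding.nonempty_of_card_le
    simpa using h
  refine ⟨fun i => if h : ∃ s : S, g s = i then (h.choose : Fin r) else 0, fun s hs => ?_⟩
  refine ⟨g ⟨s, hs⟩, ?_⟩
  have h1 : ∃ s' : S, g s' = g ⟨s, hs⟩ := ⟨_, rfl⟩
  simp only [dif_pos h1]
  have h2 := g.injective h1.choose_spec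
  rw [h2]

theorem block [NeZero r] {η : ℝ} {G : PG ℕ ℕ (Fin r) (Fin r)} (hs : G.Sound η) {K : ℕ}
    (A B : ℕ → Finset (Fin r)) (hA : ∀ x, (A x).card ≤ K) (hB : ∀ x, (B x).card ≤ K)
    (P : Ed r → Bool) (hP : ∀ c, P c = true → ∃ s ∈ A c.1, ∃ u ∈ B c.2.1, c.2.2 s = u) :
    (G.countP P : ℝ) ≤ (K : ℝ) ^ 2 * (η * G.length) := by
  classical
  have hA' := fun x => exists_enum (A x) (hA x)
  have hB' := fun x => exists_enum (B x) (hB x)
  choose a ha using hA'
  choose b hb using hB'
  have h1 : G.countP P ≤ ∑ i : Fin K, ∑ j : Fin K, G.sat (fun x => a x i) (fun y => b y j) := by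
    unfold PG.sat
    simp only [← sum_get_countP]
    have e1 : ∑ i : Fin K, ∑ j : Fin K, ∑ n : Fin G.length,
        (if decide ((G.get n).2.2 (a (G.get n).1 i) = b (G.get n).2.1 j) = true then (1 : ℕ)
          else 0) = ∑ n : Fin G.length, ∑ i : Fin K, ∑ j : Fin K,
        (if decide ((G.get n).2.2 (a (G.get n).1 i) = b (G.get n).2.1 j) = true then (1 : ℕ)
          else 0) := by
      rw [Finset.sum_comm' (t' := univ) (s' := fun _ => univ) (by simp)]
      simp only [Finset.sum_comm (s := (univ : Finset (Fin G.length)))]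
      rw [Finset.sum_comm]
    rw [e1]
    refine Finset.sum_le_sum fun n _ => ?_
    by_cases hn : P (G.get n) = true
    · rw [if_pos hn]
      obtain ⟨s, hs1, u, hu1, hsu⟩ := hP _ hn
      obtain ⟨i, hi⟩ := ha _ s hs1
      obtain ⟨j, hj⟩ := hb _ u hu1
      calc 1 ≤ (if decide ((G.get n).2.2 (a (G.get n).1 i) = b (G.get n).2.1 j) = true
            then (1 : ℕ) else 0) := by
            rw [if_pos]
            rw [hi, hj, hsu]
            simp
        _ ≤ ∑ j : Fin K, (if decide ((G.get n).2.2 (a (G.get n).1 i) = b (G.get n).2.1 j) = true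
            then (1 : ℕ) else 0) :=
          Finset.single_le_sum (f := fun j : Fin K =>
            (if decide ((G.get n).2.2 (a (G.get n).1 i) = b (G.get n).2.1 j) = true
            then (1 : ℕ) else 0)) (fun _ _ => Nat.zero_le _) (mem_univ j)
        _ ≤ _ := Finset.single_le_sum (f := fun i : Fin K => ∑ j : Fin K,
            (if decide ((G.get n).2.2 (a (G.get n).1 i) = b (G.get n).2.1 j) = true
            then (1 : ℕ) else 0)) (fun _ _ => Nat.zero_le _) (mem_univ i)
    · rw [if_neg hn]
      exact Nat.zero_le _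
  have h2 : ((∑ i : Fin K, ∑ j : Fin K, G.sat (fun x => a x i) (fun y => b y j) : ℕ) : ℝ) ≤
      ∑ _i : Fin K, ∑ _j : Fin K, (η * G.length) := by
    push_cast
    exact Finset.sum_le_sum fun i _ => Finset.sum_le_sum fun j _ => hs _ _
  calc (G.countP P : ℝ) ≤ ((∑ i : Fin K, ∑ j : Fin K,
        G.sat (fun x => a x i) (fun y => b y j) : ℕ) : ℝ) := by exact_mod_cast h1
    _ ≤ _ := h2
    _ = _ := by
      simp only [Finset.sum_const, Finset.card_univ, Fintype.card_fin, nsmul_eq_mul]
      ring

/-- averaging over one coordinate -/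
theorem sum_update {N : ℕ} (b : Fin l) (f : (Fin l → Fin N) → ℝ) :
    ∑ p : Fin l → Fin N, ∑ j : Fin N, f (Function.update p b j) = N * ∑ p, f p := by
  have h1 : ∑ p : Fin l → Fin N, ∑ j : Fin N, f (Function.update p b j) =
      ∑ x : (Fin l → Fin N) × Fin N, f (Function.update x.1 b x.2) := by
    rw [Fintype.sum_prod_type]
  have h2 : (N : ℝ) * ∑ p, f p = ∑ x : (Fin l → Fin N) × Fin N, f x.1 := by
    rw [Fintype.sum_prod_type]
    simp only [Finset.sum_const, Finset.card_univ, Fintype.card_fin, nsmul_eq_mul]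
    rw [Finset.mul_sum]
  rw [h1, h2]
  have hinv : Function.Involutive
      (fun x : (Fin l → Fin N) × Fin N => (Function.update x.1 b x.2, x.1 b)) := by
    intro x
    simp
  exact Equiv.sum_comp hinv.toPerm (fun x : (Fin l → Fin N) × Fin N => f x.1)

theorem lists {η : ℝ} {G : PG ℕ ℕ (Fin r) (Fin r)} (hG : G ≠ []) (hs : G.Sound η) {K : ℕ}
    (hK : l * η * K ^ 2 < 1)
    (A B : Fin l → (Fin l → Ed r) → Finset (Fin r))
    (hA : ∀ b e, (A b e).card ≤ K) (hB : ∀ b e, (B b e).card ≤ K)
    (hA' : ∀ b e e', (∀ b', b' ≠ b → e b' = e' b') → (e b).1 = (e' b).1 → A b e = A b e')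
    (hB' : ∀ b e e', (∀ b', b' ≠ b → e b' = e' b') → (e b).2.1 = (e' b).2.1 → B b e = B b e') :
    ∃ e : Fin l → Ed r, (∀ b, e b ∈ G) ∧ ∀ b, ∀ s ∈ A b e, ∀ u ∈ B b e, (e b).2.2 s ≠ u := by
  classical
  rcases Nat.eq_zero_or_pos r with hr | hr
  · subst hr
    obtain ⟨c, hc⟩ := List.exists_mem_of_ne_nil G hG
    exact ⟨fun _ => c, fun _ => hc, fun b s => s.elim0⟩
  have : NeZero r := ⟨hr.ne'⟩
  have hN : 0 < G.length := List.length_pos_iff.2 hG
  by_contra hcon
  push Not at hcon
  -- the tuple of edges of an index tuple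
  obtain ⟨E, hE⟩ : ∃ E : (Fin l → Fin G.length) → Fin l → Ed r, ∀ p b, E p b = G.get (p b) :=
    ⟨fun p b => G.get (p b), fun _ _ => rfl⟩
  have hup : ∀ p b j, E (Function.update p b j) = Function.update (E p) b (G.get j) := by
    intro p b j
    funext b'
    by_cases h : b' = b
    · subst h
      rw [hE, Function.update_self, Function.update_self]
    · rw [hE, Function.update_of_ne h, Function.update_of_ne h, hE]
  let bad : Fin l → (Fin l → Ed r) → Prop := fun b e => ∃ s ∈ A b e, ∃ u ∈ B b e, (e b).2.2 s = u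
  let f : Fin l → (Fin l → Fin G.length) → ℝ := fun b p => if bad b (E p) then 1 else 0
  have hNR : (0 : ℝ) < G.length := by exact_mod_cast hN
  -- one block
  have hblock : ∀ b, ∑ p, f b p ≤ (G.length : ℝ) ^ l * (K ^ 2 * η) := by
    intro b
    have h1 : (G.length : ℝ) * ∑ p, f b p ≤
        ∑ _p : Fin l → Fin G.length, (K : ℝ) ^ 2 * (η * G.length) := by
      rw [← sum_update b]
      refine Finset.sum_le_sum fun p _ => ?_
      have h2 := block hs (fun x => A b (Function.update (E p) b (x, 0, fun s => s)))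
        (fun y => B b (Function.update (E p) b (0, y, fun s => s))) (fun x => hA _ _)
        (fun y => hB _ _) (fun c => decide (bad b (Function.update (E p) b c))) (by
          intro c hc
          obtain ⟨s, hs1, u, hu1, hsu⟩ := of_decide_eq_true hc
          refine ⟨s, ?_, u, ?_, ?_⟩
          · rw [hA' b (Function.update (E p) b (c.1, 0, fun s => s)) (Function.update (E p) b c)]
            · exact hs1
            · intro b' hb'
              rw [Function.update_of_ne hb', Function.update_of_ne hb']
            · rw [Function.update_self, Function.update_self]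
          · rw [hB' b (Function.update (E p) b (0, c.2.1, fun s => s)) (Function.update (E p) b c)]
            · exact hu1
            · intro b' hb'
              rw [Function.update_of_ne hb', Function.update_of_ne hb']
            · rw [Function.update_self, Function.update_self]
          · rw [Function.update_self] at hsu
            exact hsu)
      refine le_trans (le_of_eq ?_) h2
      rw [← sum_get_countP]
      push_cast
      refine Finset.sum_congr rfl fun j _ => ?_
      simp only [f, hup, decide_eq_true_eq]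
    rw [Finset.sum_const, Finset.card_univ, Fintype.card_fun, Fintype.card_fin, Fintype.card_fin,
      nsmul_eq_mul] at h1
    push_cast at h1
    have h3 : (G.length : ℝ) * ∑ p, f b p ≤
        (G.length : ℝ) * ((G.length : ℝ) ^ l * (K ^ 2 * η)) := by
      refine h1.trans (le_of_eq ?_)
      ring
    exact le_of_mul_le_mul_left h3 hNR
  -- all blocks
  have h1 : ((G.length : ℝ) ^ l) ≤ ∑ b, ∑ p, f b p := by
    rw [Finset.sum_comm]
    have h2 : ((G.length : ℝ) ^ l) = ∑ _p : Fin l → Fin G.length, (1 : ℝ) := by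
      rw [Finset.sum_const, Finset.card_univ, Fintype.card_fun, Fintype.card_fin,
        Fintype.card_fin, nsmul_eq_mul, mul_one]
      push_cast
      rfl
    rw [h2]
    refine Finset.sum_le_sum fun p _ => ?_
    obtain ⟨b, s, hs1, u, hu1, hsu⟩ := hcon (E p) (fun b => by rw [hE]; exact List.get_mem _ _)
    have h3 : f b p = 1 := if_pos ⟨s, hs1, u, hu1, hsu⟩
    rw [← h3]
    exact Finset.single_le_sum (f := fun b => f b p)
      (fun b _ => by simp only [f]; split_ifs <;> norm_num) (mem_univ b)
  have h2 : ∑ b, ∑ p, f b p ≤ ∑ _b : Fin l, (G.length : ℝ) ^ l * (K ^ 2 * η) :=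
    Finset.sum_le_sum fun b _ => hblock b
  rw [Finset.sum_const, Finset.card_univ, Fintype.card_fin, nsmul_eq_mul] at h2
  have h3 : (l : ℝ) * ((G.length : ℝ) ^ l * (K ^ 2 * η)) = (l * η * K ^ 2) * (G.length : ℝ) ^ l := by
    ring
  have h4 : (0 : ℝ) < (G.length : ℝ) ^ l := by positivity
  rw [h3] at h2
  nlinarith

end Vale.Agent.P342.H399
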