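import Vale.Agent.P342.H399.Soundness
import Vale.Agent.P342.H399.Full
import Vale.Agent.P342.H399.Lists
import Vale.Agent.P342.H887.Visible

/-! P342: soundness, with all the modules plugged in. -/

namespace Vale.Agent.P342

open Vale.Agent.Lib.PCP Finset

/-- MODULE D: soundness. -/
theorem soundness (c : ℕ) : ∃ (l : ℕ) (η : ℝ), 0 < η ∧ ∀ (r : ℕ) [NeZero r]
    (G : PG ℕ ℕ (Fin r) (Fin r)), G ≠ [] → G.Sound η →
      ¬ ∃ col : Vx l r → Fin c, ∀ v v', Adj G v v' → col v ≠ col v' :=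
  soundness_of
    (fun _ _ _ U b hb hU => Geo.cf_zero' U b hb hU)
    (fun _ _ _ ht _ _ hb hU => Vis.cf_top ht hb hU)
    (fun _ _ _ ht hm => H399.cf_full ht hm)
    (fun _ _ _ _ _ ht _ hc hm _ _ _ h1 h2 => pt_visible ht hc hm h1 h2)
    (fun _ _ _ _ hG hs _ hK A B hA hB hA' hB' => H399.lists hG hs hK A B hA hB hA' hB') c

end Vale.Agent.P342
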