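import Vale.Agent.P342.H266.AnalyticMain
import Vale.Agent.P342.H403.Borsuk
import Vale.Agent.P342.H733.Geometry
import Vale.Agent.P342.H948.Sound
import Vale.Agent.P342.H948.NoCol

/-!
P342, module D (soundness): assembly from the modules A, B, C, E.
-/

namespace Vale.Agent.P342

open Vale.Agent.Lib.PCP Finset

variable {l r : ℕ}

/-! ### The statements of the modules used here -/

/-- a zero of the type kills the coefficient -/
def CfZeroStmt : Prop := ∀ (l m : ℕ) (t : Fin l → ℕ) (U : Finset (Fin l)) (b : Fin l), t b = 0 →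
  b ∈ U → cf m t U = 0

/-- a top block outside `U` kills the coefficient -/
def CfTopStmt : Prop := ∀ (l m : ℕ) (t : Fin l → ℕ), (∀ b, t b ≤ m) → ∀ (U : Finset (Fin l))
  (b : Fin l), t b = m → b ∉ U → cf m t U = 0

/-- some set has full coefficient -/
def CfFullStmt : Prop := ∀ (l m : ℕ) (t : Fin l → ℕ), IsType m t → 0 < m →
  ∃ U : Finset (Fin l), U.Nonempty ∧ cf m t U = m

/-- visibility -/
def VisibleStmt : Prop := ∀ (l r m Q : ℕ) (t : Fin l → ℕ), (∀ b, t b ≤ m) →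
  ∀ U0 : Finset (Fin l), cf m t U0 = m → 0 < m → ∀ (e e' : Fin l → Ed r) (b : Fin l),
    (∀ b', b' ≠ b → e b' = e' b') →
    ((t b = m ∧ (e b).1 = (e' b).1) ∨ (t b = 0 ∧ (e b).2.1 = (e' b).2.1)) →
    pt m Q t U0 e = pt m Q t U0 e'

/-- short lists -/
def ListsStmt : Prop := ∀ (l r : ℕ) (η : ℝ) (G : PG ℕ ℕ (Fin r) (Fin r)), G ≠ [] → G.Sound η →
  ∀ K : ℕ, (l : ℝ) * η * (K : ℝ) ^ 2 < 1 → ∀ A B : Fin l → (Fin l → Ed r) → Finset (Fin r),
    (∀ b e, (A b e).card ≤ K) → (∀ b e, (B b e).card ≤ K) →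
    (∀ b e e', (∀ b', b' ≠ b → e b' = e' b') → (e b).1 = (e' b).1 → A b e = A b e') →
    (∀ b e e', (∀ b', b' ≠ b → e b' = e' b') → (e b).2.1 = (e' b).2.1 → B b e = B b e') →
    ∃ e : Fin l → Ed r, (∀ b, e b ∈ G) ∧ ∀ b, ∀ s ∈ A b e, ∀ u ∈ B b e, (e b).2.2 s ≠ u

/-- module A -/
theorem analytic' (c D : ℕ) (hD : 0 < D) (η : ℝ) (hη : 0 < η) : ∃ L : ℕ,
    ∀ (I : Type) [Fintype I] [DecidableEq I], ∃ k0 : ℕ, ∀ k, k0 ≤ k →
    ∀ F : (I → Fin (2 ^ k)) → Fin c, ∃ J : Finset I, J.card ≤ L ∧ ∀ a : Fin c,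
      (Nat.card {x : I → Fin (2 ^ k) // Dense F J a x ∧ Far D F a x} : ℝ) ≤
        η * (2 ^ k : ℝ) ^ Fintype.card I := by
  classical
  obtain ⟨L, hL⟩ := analytic c D hD η hη
  refine ⟨L, fun I _ _ => ?_⟩
  obtain ⟨k0, hk0⟩ := hL I
  refine ⟨k0, fun k hk F => ?_⟩
  obtain ⟨J, hJ, h⟩ := hk0 k hk F
  refine ⟨J, hJ, fun a => ?_⟩
  have h1 := h a
  rw [Nat.card_eq_fintype_card, Fintype.card_subtype]
  convert h1

/-- D1, with a finset of types. -/
theorem exists_good' {c k : ℕ} (T : Finset (Fin l → ℕ)) (U0 : (Fin l → ℕ) → Finset (Fin l))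
    (F : (Fin l → ℕ) → (Ix l r → Fin (2 ^ k)) → Fin c) (J : (Fin l → ℕ) → Finset (Ix l r))
    (D : ℕ) (η : ℝ)
    (hJ : ∀ t ∈ T, ∀ a, (Nat.card {x : Ix l r → Fin (2 ^ k) //
      Dense (F t) (J t) a x ∧ Far D (F t) a x} : ℝ) ≤ η * (2 ^ k : ℝ) ^ Fintype.card (Ix l r))
    (hη : (T.card : ℝ) * 2 ^ l * c * η < 1) (e : Fin l → Ed r)
    (lev : (Fin l → Fin r) → Fin l) :
    ∃ (θ : (Fin l → Fin r) → Fin (2 ^ k)) (z : Ix l r → Fin (2 ^ k)), ∀ t ∈ T,
      ∀ (y : Fin l → Bool) (a : Fin c),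
        Dense (F t) (J t) a (wash (2 ^ k) (U0 t) e (shift (2 ^ k) lev y θ) z) →
        ¬ Far D (F t) a (wash (2 ^ k) (U0 t) e (shift (2 ^ k) lev y θ) z) := by
  classical
  obtain ⟨θ, z, h⟩ := exists_good (T := {t // t ∈ T}) e (fun t => U0 t.1) (fun t => F t.1)
    (fun t => J t.1) lev D (η := η) (by simpa using hη) (by
      intro t a
      have h1 := hJ t.1 t.2 a
      rw [Nat.card_eq_fintype_card, Fintype.card_subtype] at h1
      push_cast
      exact h1)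
  exact ⟨θ, z, fun t ht => h ⟨t, ht⟩⟩

/-- D2 (topology), with at most `l` colours. -/
theorem no_col' {c m : ℕ} (hc : c ≤ l) (hl : 0 < l) (hm : 1 ≤ m)
    (Qs : (Fin l → ℕ) → (Fin l → Bool) → Finset (Fin c))
    (hne : ∀ t y, IsType m t → (Qs t y).Nonempty)
    (h0 : ∀ t y y₁, IsType m t → (∀ b, t b ≠ 0 → y b = y₁ b) → Qs t y = Qs t y₁)
    (hd : ∀ t t₁ y, IsType m t → IsType m t₁ → Near t t₁ →
      Disjoint (Qs t y) (Qs t₁ fun b => !y b)) : False := by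
  refine no_col (l := l) hm (fun t y => (Qs t y).map (Fin.castLEEmb hc)) ?_ ?_ ?_ hl
  · intro t y ht
    exact (hne t y ht).map
  · intro t y y₁ ht hy
    simp only [h0 t y y₁ ht hy]
  · intro t t₁ y ht ht₁ hn
    exact (Finset.disjoint_map _).2 (hd t t₁ y ht ht₁ hn)

theorem Dense.congr {I A : Type} [Fintype I] [DecidableEq I] [Fintype A] [DecidableEq A] {c : ℕ}
    {F : (I → A) → Fin c} {J : Finset I} {a : Fin c} {x x' : I → A} (h : ∀ i ∈ J, x i = x' i) :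
    Dense F J a x ↔ Dense F J a x' := by
  have e1 : ∀ y : I → A, (∀ i ∈ J, y i = x i) ↔ (∀ i ∈ J, y i = x' i) := by
    intro y
    constructor
    · intro hy i hi
      rw [hy i hi, h i hi]
    · intro hy i hi
      rw [hy i hi, h i hi]
  unfold Dense
  simp only [e1]

theorem exists_dense {I A : Type} [Fintype I] [DecidableEq I] [Fintype A] [DecidableEq A] {c : ℕ}
    (F : (I → A) → Fin c) (J : Finset I) (x : I → A) : ∃ a, Dense F J a x := by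
  by_contra hcon
  push Not at hcon
  have hc : 0 < c := lt_of_le_of_lt (Nat.zero_le _) (F x).2
  have : Nonempty (Fin c) := ⟨⟨0, hc⟩⟩
  have h1 : ∑ a : Fin c, (univ.filter fun y : I → A => (∀ i ∈ J, y i = x i) ∧ F y = a).card
      = (univ.filter fun y : I → A => ∀ i ∈ J, y i = x i).card := by
    rw [Finset.card_eq_sum_card_fiberwise (f := F) (t := univ) (fun _ _ => by simp)]
    refine Finset.sum_congr rfl fun a _ => ?_
    rw [Finset.filter_filter]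
  have h2 : ∑ a : Fin c, c * (univ.filter fun y : I → A => (∀ i ∈ J, y i = x i) ∧ F y = a).card
      < ∑ _a : Fin c, (univ.filter fun y : I → A => ∀ i ∈ J, y i = x i).card := by
    refine Finset.sum_lt_sum_of_nonempty univ_nonempty fun a _ => ?_
    have := hcon a
    unfold Dense at this
    omega
  rw [← Finset.mul_sum, h1, Finset.sum_const, Finset.card_univ, Fintype.card_fin,
    smul_eq_mul] at h2
  exact lt_irrefl _ h2

/-! ### The functions `F_t` and their lists -/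

/-- `F_t` -/
noncomputable def FT {c : ℕ} (col : Vx l r → Fin c) (m k : ℕ)
    (U0 : (Fin l → ℕ) → Finset (Fin l)) (e : Fin l → Ed r) (t : Fin l → ℕ) :
    (Ix l r → Fin (2 ^ k)) → Fin c := fun ω => col (pt m (2 ^ k) t (U0 t) e ω)

/-- the coordinates of the full level in the list of `t`. -/
noncomputable def S₀ {c k : ℕ} (J : ((Ix l r → Fin (2 ^ k)) → Fin c) → Finset (Ix l r))
    (U0 : (Fin l → ℕ) → Finset (Fin l)) (F : (Fin l → ℕ) → (Ix l r → Fin (2 ^ k)) → Fin c)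
    (t : Fin l → ℕ) : Finset (Ix l r) := (J (F t)).filter fun i => i.1.1 = U0 t

/-- the labels of block `b` in the lists of the types in `T'`. -/
noncomputable def lab {c k : ℕ} (J : ((Ix l r → Fin (2 ^ k)) → Fin c) → Finset (Ix l r))
    (U0 : (Fin l → ℕ) → Finset (Fin l)) (F : (Fin l → ℕ) → (Ix l r → Fin (2 ^ k)) → Fin c)
    (T' : Finset (Fin l → ℕ)) (b : Fin l) : Finset (Fin r) :=
  T'.biUnion fun t => (S₀ J U0 F t).image fun i => i.2 b

theorem mem_lab {c k : ℕ} {J : ((Ix l r → Fin (2 ^ k)) → Fin c) → Finset (Ix l r)}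
    {U0 : (Fin l → ℕ) → Finset (Fin l)} {F : (Fin l → ℕ) → (Ix l r → Fin (2 ^ k)) → Fin c}
    {T' : Finset (Fin l → ℕ)} {b : Fin l} {t : Fin l → ℕ} (ht : t ∈ T') {i : Ix l r}
    (hi : i ∈ S₀ J U0 F t) : i.2 b ∈ lab J U0 F T' b :=
  Finset.mem_biUnion.2 ⟨t, ht, Finset.mem_image_of_mem _ hi⟩

theorem lab_congr {c k : ℕ} (J : ((Ix l r → Fin (2 ^ k)) → Fin c) → Finset (Ix l r))
    (U0 : (Fin l → ℕ) → Finset (Fin l)) {F F' : (Fin l → ℕ) → (Ix l r → Fin (2 ^ k)) → Fin c}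
    (T' : Finset (Fin l → ℕ)) (b : Fin l) (h : ∀ t ∈ T', F t = F' t) :
    lab J U0 F T' b = lab J U0 F' T' b := by
  unfold lab
  refine Finset.biUnion_congr rfl fun t ht => ?_
  unfold S₀
  rw [h t ht]

theorem card_lab {c k L : ℕ} {J : ((Ix l r → Fin (2 ^ k)) → Fin c) → Finset (Ix l r)}
    (hJ : ∀ F, (J F).card ≤ L) (U0 : (Fin l → ℕ) → Finset (Fin l))
    (F : (Fin l → ℕ) → (Ix l r → Fin (2 ^ k)) → Fin c) (T' T : Finset (Fin l → ℕ)) (b : Fin l)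
    (hT : T' ⊆ T) : (lab J U0 F T' b).card ≤ T.card * L := by
  refine Finset.card_biUnion_le.trans ?_
  calc ∑ t ∈ T', ((S₀ J U0 F t).image fun i => i.2 b).card
      ≤ ∑ _t ∈ T', L := Finset.sum_le_sum fun t _ =>
        Finset.card_image_le.trans ((Finset.card_filter_le _ _).trans (hJ _))
    _ = T'.card * L := by rw [Finset.sum_const, smul_eq_mul]
    _ ≤ T.card * L := Nat.mul_le_mul_right _ (Finset.card_le_card hT)

/-- the restrictions to level `∅` of the list of `t` -/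
noncomputable def SS {c k : ℕ} (J : ((Ix l r → Fin (2 ^ k)) → Fin c) → Finset (Ix l r))
    (U0 : (Fin l → ℕ) → Finset (Fin l)) (F : (Fin l → ℕ) → (Ix l r → Fin (2 ^ k)) → Fin c)
    (e : Fin l → Ed r) (t : Fin l → ℕ) : Finset (Fin l → Fin r) :=
  (S₀ J U0 F t).image fun i => proj e i.1.1 ∅ i.2

/-- levels -/
theorem exists_lev {c k m : ℕ} (hl : 0 < l)
    (J : ((Ix l r → Fin (2 ^ k)) → Fin c) → Finset (Ix l r))
    (U0 : (Fin l → ℕ) → Finset (Fin l)) (F : (Fin l → ℕ) → (Ix l r → Fin (2 ^ k)) → Fin c)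
    (e : Fin l → Ed r) (T : Finset (Fin l → ℕ)) (hT : ∀ t, t ∈ T ↔ IsType m t)
    (hU0 : ∀ t, IsType m t → ∀ b, t b = 0 → b ∉ U0 t)
    (hU1 : ∀ t, IsType m t → ∀ b, t b = m → b ∈ U0 t)
    (he : ∀ b, ∀ s ∈ lab J U0 F (T.filter fun t => t b = m) b,
      ∀ u ∈ lab J U0 F (T.filter fun t => t b = 0) b, (e b).2.2 s ≠ u) :
    ∃ lev : (Fin l → Fin r) → Fin l, ∀ t, IsType m t → ∀ ρ ∈ SS J U0 F e t, t (lev ρ) ≠ 0 := by
  classical
  have hlev : ∀ ρ : Fin l → Fin r, ∃ b : Fin l,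
      (∃ b' t, IsType m t ∧ t b' = m ∧ ρ ∈ SS J U0 F e t) →
      ∃ t, IsType m t ∧ t b = m ∧ ρ ∈ SS J U0 F e t := by
    intro ρ
    by_cases h : ∃ b' t, IsType m t ∧ t b' = m ∧ ρ ∈ SS J U0 F e t
    · obtain ⟨b', hb'⟩ := h
      exact ⟨b', fun _ => hb'⟩
    · exact ⟨⟨0, hl⟩, fun h' => absurd h' h⟩
  choose lev hlev using hlev
  refine ⟨lev, ?_⟩
  intro t ht ρ hρ h0
  obtain ⟨b₁, hb₁⟩ := ht.2
  obtain ⟨t', ht', htm, hρ'⟩ := hlev ρ ⟨b₁, t, ht, hb₁, hρ⟩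
  obtain ⟨i', hi', hi'ρ⟩ := Finset.mem_image.1 hρ'
  obtain ⟨i, hi, hiρ⟩ := Finset.mem_image.1 hρ
  have hi'U : i'.1.1 = U0 t' := (Finset.mem_filter.1 hi').2
  have hiU : i.1.1 = U0 t := (Finset.mem_filter.1 hi).2
  have hb : lev ρ ∉ i.1.1 := by
    rw [hiU]
    exact hU0 t ht _ h0
  have hb' : lev ρ ∈ i'.1.1 := by
    rw [hi'U]
    exact hU1 t' ht' _ htm
  have e1 : ρ (lev ρ) = i.2 (lev ρ) := by
    have := congrFun hiρ (lev ρ)
    rw [← this]
    simp [proj, hb]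
  have e2 : ρ (lev ρ) = (e (lev ρ)).2.2 (i'.2 (lev ρ)) := by
    have := congrFun hi'ρ (lev ρ)
    rw [← this]
    simp [proj, hb']
  exact he (lev ρ) (i'.2 (lev ρ))
    (mem_lab (Finset.mem_filter.2 ⟨(hT t').2 ht', htm⟩) hi') (i.2 (lev ρ))
    (mem_lab (Finset.mem_filter.2 ⟨(hT t).2 ht, h0⟩) hi) (e2.symm.trans e1)

/-- freezing: two adjacent types with opposite signs have no common dense colour. -/
theorem dense_disjoint {c k m : ℕ} {G : PG ℕ ℕ (Fin r) (Fin r)} {col : Vx l r → Fin c}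
    (hcol : ∀ v v', Adj G v v' → col v ≠ col v') (hk1 : 1 ≤ k)
    (hm : 1000 * (2 ^ l) ^ 2 ≤ m) (hkQ : 1000 * 2 ^ l ≤ 2 ^ k)
    {U0 : (Fin l → ℕ) → Finset (Fin l)}
    (hU0 : ∀ t, IsType m t → (U0 t).Nonempty ∧ cf m t (U0 t) = m)
    {e : Fin l → Ed r} (heG : ∀ b, e b ∈ G) {lev : (Fin l → Fin r) → Fin l}
    {θ : (Fin l → Fin r) → Fin (2 ^ k)} {z : Ix l r → Fin (2 ^ k)}
    {t t₁ : Fin l → ℕ} {y : Fin l → Bool} (ht : IsType m t) (ht₁ : IsType m t₁)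
    (hn : Near t t₁) {a : Fin c}
    (h1 : ¬ Far (100 * 2 ^ l) (FT col m k U0 e t) a (wash (2 ^ k) (U0 t) e (shift (2 ^ k) lev y θ) z))
    (h2 : ¬ Far (100 * 2 ^ l) (FT col m k U0 e t₁) a
      (wash (2 ^ k) (U0 t₁) e (shift (2 ^ k) lev (fun b => !y b) θ) z)) : False := by
  unfold Far at h1 h2
  push Not at h1 h2
  obtain ⟨α, hαa, hα⟩ := h1
  obtain ⟨α', hα'a, hα'⟩ := h2
  have hE : Even (2 ^ k) := by
    rw [Nat.even_pow]
    exact ⟨even_two, by omega⟩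
  have hθ := fun ρ => shift_not (Q := 2 ^ k) hE lev y θ ρ
  have hg := geometry hm hkQ hE ht ht₁ hn (hU0 t ht).1 (hU0 t₁ ht₁).1 (hU0 t ht).2
    (hU0 t₁ ht₁).2 e (shift (2 ^ k) lev y θ) (shift (2 ^ k) lev (fun b => !y b) θ) z hθ α α' hα hα'
  refine hcol _ _ ⟨e, heG, supp t, supp t₁, rfl, rfl, hg⟩ ?_
  exact hαa.trans hα'a.symm

/-- the core of the soundness, after the choice of the constants. -/
theorem core (cf_zero : CfZeroStmt) (cf_top : CfTopStmt) (cf_full : CfFullStmt)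
    (pt_visible : VisibleStmt) (lists : ListsStmt) {c k m L : ℕ} (hcl : c ≤ l) (hl : 0 < l) {η η₁ : ℝ}
    {G : PG ℕ ℕ (Fin r) (Fin r)} (hG : G ≠ []) (hS : G.Sound η) {col : Vx l r → Fin c}
    (hcol : ∀ v v', Adj G v v' → col v ≠ col v') (hk1 : 1 ≤ k)
    (hm : 1000 * (2 ^ l) ^ 2 ≤ m) (hkQ : 1000 * 2 ^ l ≤ 2 ^ k)
    (T : Finset (Fin l → ℕ)) (hT : ∀ t, t ∈ T ↔ IsType m t)
    (hη₁ : (T.card : ℝ) * 2 ^ l * c * η₁ < 1)
    (hη : (l : ℝ) * η * ((T.card * L : ℕ) : ℝ) ^ 2 < 1)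
    (J : ((Ix l r → Fin (2 ^ k)) → Fin c) → Finset (Ix l r)) (hJL : ∀ F, (J F).card ≤ L)
    (hJ : ∀ F a, (Nat.card {x : Ix l r → Fin (2 ^ k) //
      Dense F (J F) a x ∧ Far (100 * 2 ^ l) F a x} : ℝ) ≤
        η₁ * (2 ^ k : ℝ) ^ Fintype.card (Ix l r)) : False := by
  classical
  have hmpos : 0 < m := lt_of_lt_of_le (by positivity) hm
  -- full sets
  have hfull : ∀ t : Fin l → ℕ, ∃ U : Finset (Fin l), IsType m t → U.Nonempty ∧ cf m t U = m := by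
    intro t
    by_cases ht : IsType m t
    · obtain ⟨U, hU1, hU2⟩ := cf_full l m t ht hmpos
      exact ⟨U, fun _ => ⟨hU1, hU2⟩⟩
    · exact ⟨∅, fun h => absurd h ht⟩
  choose U0 hU0 using hfull
  have hU0zero : ∀ t, IsType m t → ∀ b, t b = 0 → b ∉ U0 t := by
    intro t ht b hb hbU
    have h1 := (hU0 t ht).2
    rw [cf_zero l m t (U0 t) b hb hbU] at h1
    omega
  have hU0top : ∀ t, IsType m t → ∀ b, t b = m → b ∈ U0 t := by
    intro t ht b hb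
    by_contra hbU
    have h1 := (hU0 t ht).2
    rw [cf_top l m t ht.1 (U0 t) b hb hbU] at h1
    omega
  have hvis : ∀ t, IsType m t → ∀ (e e' : Fin l → Ed r) (b : Fin l),
      (∀ b', b' ≠ b → e b' = e' b') →
      ((t b = m ∧ (e b).1 = (e' b).1) ∨ (t b = 0 ∧ (e b).2.1 = (e' b).2.1)) →
      FT col m k U0 e t = FT col m k U0 e' t := by
    intro t ht e e' b h1 h2
    unfold FT
    rw [pt_visible l r m (2 ^ k) t ht.1 (U0 t) (hU0 t ht).2 hmpos e e' b h1 h2]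
  obtain ⟨e, heG, he⟩ := lists l r η G hG hS (T.card * L) hη
    (fun b e => lab J U0 (FT col m k U0 e) (T.filter fun t => t b = m) b)
    (fun b e => lab J U0 (FT col m k U0 e) (T.filter fun t => t b = 0) b)
    (fun b e => card_lab hJL U0 _ _ _ b (Finset.filter_subset _ _))
    (fun b e => card_lab hJL U0 _ _ _ b (Finset.filter_subset _ _))
    (fun b e e' h1 h2 => lab_congr J U0 _ b fun t ht =>
      hvis t ((hT t).1 (Finset.mem_filter.1 ht).1) e e' b h1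
        (Or.inl ⟨(Finset.mem_filter.1 ht).2, h2⟩))
    (fun b e e' h1 h2 => lab_congr J U0 _ b fun t ht =>
      hvis t ((hT t).1 (Finset.mem_filter.1 ht).1) e e' b h1
        (Or.inr ⟨(Finset.mem_filter.1 ht).2, h2⟩))
  obtain ⟨lev, key⟩ := exists_lev hl J U0 (FT col m k U0 e) e T hT hU0zero hU0top he
  obtain ⟨θ, z, hgood⟩ := exists_good' T U0 (FT col m k U0 e) (fun t => J (FT col m k U0 e t))
    (100 * 2 ^ l) η₁ (fun t _ a => hJ _ a) hη₁ e lev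
  refine no_col' (l := l) (c := c) (m := m) hcl hl hmpos
    (fun t y => univ.filter fun a => Dense (FT col m k U0 e t) (J (FT col m k U0 e t)) a
      (wash (2 ^ k) (U0 t) e (shift (2 ^ k) lev y θ) z)) ?_ ?_ ?_
  · intro t y _
    obtain ⟨a, ha⟩ := exists_dense (FT col m k U0 e t) (J (FT col m k U0 e t))
      (wash (2 ^ k) (U0 t) e (shift (2 ^ k) lev y θ) z)
    exact ⟨a, Finset.mem_filter.2 ⟨Finset.mem_univ _, ha⟩⟩
  · intro t y y₁ ht hy
    refine Finset.filter_congr fun a _ => ?_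
    refine Dense.congr fun i hi => ?_
    unfold wash
    by_cases hiU : i.1.1 = U0 t
    · rw [if_pos hiU, if_pos hiU]
      have hρ : proj e i.1.1 ∅ i.2 ∈ SS J U0 (FT col m k U0 e) e t :=
        Finset.mem_image_of_mem (fun i : Ix l r => proj e i.1.1 ∅ i.2)
          (Finset.mem_filter.2 ⟨hi, hiU⟩)
      have h1 := key t ht _ hρ
      unfold shift
      rw [hy _ h1]
    · rw [if_neg hiU, if_neg hiU]
  · intro t t₁ y ht ht₁ hn
    rw [Finset.disjoint_left]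
    intro a ha ha₁
    exact dense_disjoint hcol hk1 hm hkQ hU0 heG ht ht₁ hn
      (hgood t ((hT t).2 ht) y a (Finset.mem_filter.1 ha).2)
      (hgood t₁ ((hT t₁).2 ht₁) _ a (Finset.mem_filter.1 ha₁).2)

/-- MODULE D: soundness, from the modules C1, C3 and E. -/
theorem soundness_of (cf_zero : CfZeroStmt) (cf_top : CfTopStmt) (cf_full : CfFullStmt)
    (pt_visible : VisibleStmt) (lists : ListsStmt) (c : ℕ) : ∃ (l : ℕ) (η : ℝ), 0 < η ∧ ∀ (r : ℕ) [NeZero r]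
    (G : PG ℕ ℕ (Fin r) (Fin r)), G ≠ [] → G.Sound η →
      ¬ ∃ col : Vx l r → Fin c, ∀ v v', Adj G v v' → col v ≠ col v' := by
  classical
  -- constants
  obtain ⟨l, hl⟩ : ∃ l, l = c + 1 := ⟨_, rfl⟩
  obtain ⟨m, hm⟩ : ∃ m, m = 1000 * (2 ^ l) ^ 2 := ⟨_, rfl⟩
  obtain ⟨T, hTmem⟩ : ∃ T : Finset (Fin l → ℕ), ∀ t, t ∈ T ↔ IsType m t := by
    refine ⟨(Fintype.piFinset fun _ => Finset.range (m + 1)).filter (IsType m), ?_⟩
    intro t
    rw [Finset.mem_filter, Fintype.mem_piFinset]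
    constructor
    · exact fun h => h.2
    · intro h
      exact ⟨fun b => by rw [Finset.mem_range]; have := h.1 b; omega, h⟩
  obtain ⟨η₁, hη₁⟩ : ∃ η₁ : ℝ, η₁ = 1 / (2 * ((T.card : ℝ) * 2 ^ l * c + 1)) := ⟨_, rfl⟩
  have hη₁pos : 0 < η₁ := by rw [hη₁]; positivity
  have hη₁lt : (T.card : ℝ) * 2 ^ l * c * η₁ < 1 := by
    rw [hη₁, mul_one_div, div_lt_one (by positivity)]
    have : 0 ≤ (T.card : ℝ) * 2 ^ l * c := by positivity
    linarith
  obtain ⟨L, hL⟩ := analytic' c (100 * 2 ^ l) (by positivity) η₁ hη₁pos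
  obtain ⟨η, hη⟩ : ∃ η : ℝ, η = 1 / (2 * ((l : ℝ) * ((T.card * L : ℕ) : ℝ) ^ 2 + 1)) := ⟨_, rfl⟩
  have hηpos : 0 < η := by rw [hη]; positivity
  have hηlt : (l : ℝ) * η * ((T.card * L : ℕ) : ℝ) ^ 2 < 1 := by
    have e1 : (l : ℝ) * η * ((T.card * L : ℕ) : ℝ) ^ 2 =
        ((l : ℝ) * ((T.card * L : ℕ) : ℝ) ^ 2) * η := by ring
    rw [e1, hη, mul_one_div, div_lt_one (by positivity)]
    have : 0 ≤ (l : ℝ) * ((T.card * L : ℕ) : ℝ) ^ 2 := by positivity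
    linarith
  refine ⟨l, η, hηpos, ?_⟩
  intro r _ G hG hS hcol
  obtain ⟨col, hcol⟩ := hcol
  -- the modulus
  obtain ⟨k0, hk0⟩ := hL (Ix l r)
  obtain ⟨k, hkk0, hk1, hkQ⟩ : ∃ k, k0 ≤ k ∧ 1 ≤ k ∧ 1000 * 2 ^ l ≤ 2 ^ k := by
    refine ⟨max k0 (10 + l), le_max_left _ _, by omega, ?_⟩
    calc 1000 * 2 ^ l ≤ 2 ^ 10 * 2 ^ l := by gcongr; norm_num
      _ = 2 ^ (10 + l) := by rw [pow_add]
      _ ≤ _ := Nat.pow_le_pow_right (by norm_num) (le_max_right _ _)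
  have hk := hk0 k hkk0
  choose J hJcard hJ using hk
  refine core cf_zero cf_top cf_full pt_visible lists (m := m) (L := L) (by omega) (by omega) hG hS hcol hk1 (le_of_eq hm.symm) hkQ T hTmem
    hη₁lt hηlt J hJcard ?_
  exact fun F a => hJ F a

end Vale.Agent.P342
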